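import Vale.Agent.P269.G1I.BSpec
import Vale.Agent.P269.G1I.H598.Cor

/-!
# [DB0] formal power series of a finite family of insertions
-/

namespace Vale.Agent.P269.G1.H521

open Finset.HasAntidiagonal (antidiagonal)
open Vale.Agent.P269.CI Vale.Agent.P269.G1

variable {X : CompleteIntersection} {n : ℕ} (E : Fam X n) {F : ℕ → ℕ → List (Ins X) → ℂ}

theorem par_ins (i : Fin n) : par X (E.ins i).1 = false := rfl

theorem sgnL_ins (a : Bool) (L : List (Fin n)) : sgnL X a (L.map E.ins) = 1 := by
  rw [sgnL, List.map_map]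
  apply List.prod_eq_one
  intro z hz
  obtain ⟨j, _, rfl⟩ := List.mem_map.1 hz
  simp [sgn, par_ins]

theorem shuffle_ins (L : List (Fin n)) : ∀ (A B : List (Ins X) → ℂ),
    shuffle X (L.map E.ins) A B =
      shf L (fun M => A (M.map E.ins)) (fun M => B (M.map E.ins)) := by
  induction L with
  | nil => intro A B; rfl
  | cons i L ih =>
    intro A B
    rw [List.map_cons, shuffle, shf, ih, ih]
    congr 1
    apply H598.shf_congr
    · intro M
      have : sgnL X (par X (E.ins i).1) (M.map E.ins) = 1 := sgnL_ins E _ _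
      rw [this, one_mul]
    · intro M
      rfl

theorem shf_mk (L : List (Fin n)) : ∀ (A B : ℕ → List (Fin n) → ℂ),
    shf L (fun M => PowerSeries.mk fun d => A d M) (fun M => PowerSeries.mk fun d => B d M) =
      PowerSeries.mk fun d => ∑ e ∈ antidiagonal d, shf L (A e.1) (B e.2) := by
  induction L with
  | nil =>
    intro A B
    ext d
    rw [shf, PowerSeries.coeff_mul]
    simp [shf]
  | cons i L ih =>
    intro A B
    rw [shf, ih (fun d M => A d (i :: M)) B, ih A (fun d M => B d (i :: M))]
    ext d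
    simp [shf, Finset.sum_add_distrib]

theorem sym_of_symF {A : ℕ → List (Ins X) → ℂ} (hA : SymF E A) :
    Sym fun L : List (Fin n) => PowerSeries.mk fun d => A d (L.map E.ins) := by
  intro L M h
  ext d
  simpa using hA d L M h

/-- **[DB0]** -/
theorem sr_mulS (A B : ℕ → List (Ins X) → ℂ) (hA : SymF E A) (hB : SymF E B) :
    sr E (mulS A B) = sr E A * sr E B := by
  rw [sr, sr, sr, H598.toSer_mul _ _ (sym_of_symF E hA) (sym_of_symF E hB)]
  congr 1
  funext L
  rw [shf_mk L (fun d M => A d (M.map E.ins)) (fun d M => B d (M.map E.ins))]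
  ext d
  simp only [PowerSeries.coeff_mk, mulS]
  exact Finset.sum_congr rfl fun e _ => shuffle_ins E L _ _

/-- **[DB0]** -/
theorem sr_inj (A B : ℕ → List (Ins X) → ℂ) (hA : SymF E A) (hB : SymF E B)
    (h : sr E A = sr E B) (d : ℕ) (L : List (Fin n)) :
    A d (L.map E.ins) = B d (L.map E.ins) := by
  have e := H598.toSer_inj _ _ (sym_of_symF E hA) (sym_of_symF E hB) h
  have e1 := congrFun e L
  simpa using congrArg (PowerSeries.coeff d) e1

/-- **[DB0]** -/
theorem pderiv_sr (A : ℕ → List (Ins X) → ℂ) (hA : SymF E A) (i : Fin n) :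
    MvPowerSeries.pderiv (PowerSeries ℂ) i (sr E A) = sr E (fun d L => A d (E.ins i :: L)) := by
  rw [sr, H598.pderiv_toSer _ (sym_of_symF E hA)]
  rfl

/-! ### elementary rules -/

theorem sr_congr {A B : ℕ → List (Ins X) → ℂ}
    (h : ∀ d (L : List (Fin n)), A d (L.map E.ins) = B d (L.map E.ins)) :
    sr E A = sr E B := by
  unfold sr
  congr 1
  funext L
  ext d
  simpa using h d L

theorem sr_add (A B : ℕ → List (Ins X) → ℂ) :
    sr E (fun d L => A d L + B d L) = sr E A + sr E B := by
  unfold sr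
  rw [← H598.toSer_add']
  congr 1

theorem sr_zero : sr E (fun _ _ => 0) = 0 := by
  funext α
  change ((∏ i, (α i).factorial : ℕ) : ℚ)⁻¹ • (PowerSeries.mk fun _ => (0 : ℂ)) = 0
  have : (PowerSeries.mk fun _ => (0 : ℂ)) = 0 := by
    ext; simp
  rw [this, smul_zero]

theorem smul_RB (c : ℂ) (f : RB n) : c • f = cb n c * f := by
  ext n m
  rw [cb, MvPowerSeries.coeff_C_mul, PowerSeries.coeff_C_mul]
  rfl

theorem sr_smul (c : ℂ) (A : ℕ → List (Ins X) → ℂ) :
    sr E (fun d L => c * A d L) = c • sr E A := by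
  funext α
  change ((∏ i, (α i).factorial : ℕ) : ℚ)⁻¹ • (PowerSeries.mk fun d => c * A d _) =
    c • (((∏ i, (α i).factorial : ℕ) : ℚ)⁻¹ • (PowerSeries.mk fun d => A d _))
  rw [smul_comm]
  congr 1

theorem sr_neg (A : ℕ → List (Ins X) → ℂ) : sr E (fun d L => - A d L) = - sr E A := by
  have h := sr_smul E (-1) A
  simp only [neg_mul, one_mul, neg_smul, one_smul] at h
  exact h

theorem sr_sub (A B : ℕ → List (Ins X) → ℂ) :
    sr E (fun d L => A d L - B d L) = sr E A - sr E B := by
  have h := sr_add E A (fun d L => - B d L)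
  rw [sr_neg] at h
  simpa [sub_eq_add_neg] using h

theorem sr_sum {σ : Type*} (s : Finset σ) (A : σ → ℕ → List (Ins X) → ℂ) :
    sr E (fun d L => ∑ x ∈ s, A x d L) = ∑ x ∈ s, sr E (A x) := by
  classical
  induction s using Finset.induction_on with
  | empty => simpa using sr_zero E
  | insert a s ha ih =>
    rw [Finset.sum_insert ha, ← ih, ← sr_add]
    exact sr_congr E fun d L => Finset.sum_insert ha

/-- the constant series -/
theorem sr_const (c : ℂ) :
    sr E (fun d L => if d = 0 ∧ L = [] then c else 0) = cb n c := by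
  unfold cb
  ext α m
  change (PowerSeries.coeff m) ((((∏ i, (α i).factorial : ℕ) : ℚ)⁻¹ •
    (PowerSeries.mk fun d => if d = 0 ∧ (lst α).map E.ins = [] then c else 0) :
      PowerSeries ℂ)) = _
  rw [MvPowerSeries.coeff_C]
  by_cases hα : α = 0
  · subst hα
    rw [if_pos rfl, H598.lst_zero]
    simp [PowerSeries.coeff_C]
  · rw [if_neg hα]
    have : lst α ≠ [] := by
      intro h
      apply hα
      ext j
      have := H598.count_lst α j
      rw [h] at this
      simpa using this.symm
    simp [this]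

/-! ### correlators -/

/-- **[DB0]** -/
theorem symF_cor (hF : IsGW X F) (g : ℕ) (P : List (Ins X)) : SymF E (cor F g P) := by
  intro d L M h
  unfold cor
  induction h generalizing P with
  | nil => rfl
  | cons x _ ih =>
    have h1 := ih (P ++ [E.ins x])
    simpa using h1
  | swap x y l =>
    have h1 := hF.symm g d P (l.map E.ins) (E.ins y) (E.ins x)
    simpa [sgn, par_ins] using h1
  | trans _ _ ih1 ih2 => exact (ih1 P).trans (ih2 P)

/-- **[DB0]** -/
theorem pderiv_sr_cor (hF : IsGW X F) (g : ℕ) (P : List (Ins X)) (i : Fin n) :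
    MvPowerSeries.pderiv (PowerSeries ℂ) i (sr E (cor F g P)) =
      sr E (cor F g (E.ins i :: P)) := by
  rw [pderiv_sr E _ (symF_cor E hF g P)]
  refine sr_congr E fun d L => ?_
  exact H598.move_even hF g d (E.ins i) (par_ins E i) P [] (L.map E.ins)

theorem sr_cor_swap (hF : IsGW X F) (g : ℕ) (P Q : List (Ins X)) (x y : Ins X)
    (h : par X x.1 = false ∨ par X y.1 = false) :
    sr E (cor F g (P ++ x :: y :: Q)) = sr E (cor F g (P ++ y :: x :: Q)) := by
  refine sr_congr E fun d L => ?_
  have h1 := hF.symm g d P (Q ++ L.map E.ins) x y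
  have h2 : sgn (par X x.1) (par X y.1) = 1 := by
    rcases h with h | h <;> simp [sgn, h]
  rw [h2, one_mul] at h1
  simpa [cor] using h1

end Vale.Agent.P269.G1.H521
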